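import Mathlib

/-!
# P054: distinct distances for point sets covered by few curves

If `n` points of `ℝ ^ d` are covered by `k` sets `Γ i` such that every sphere around a point of
`Γ i` contains at most `m` of the points on `Γ i`, then `n ≤ k (m D + 1)` for the number `D` of
distinct distances. Hence the conjectured bound `c n ^ (2 / d)` holds for point sets covered by at
most `C n ^ (1 - 2 / d)` lines, or curves of this kind.
-/

namespace Vale.Agent.Results.P054.FewCurves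

open Set

/-- The set of distinct distances. -/
def distances {d : ℕ} (P : Set (EuclideanSpace ℝ (Fin d))) : Set ℝ :=
  {r | ∃ p ∈ P, ∃ q ∈ P, p ≠ q ∧ dist p q = r}

/-- Spheres around points of `P` on `Γ` contain at most `m` points of `P` on `Γ`. -/
def SphereBound {d : ℕ} (m : ℕ) (P Γ : Set (EuclideanSpace ℝ (Fin d))) : Prop :=
  ∀ x ∈ P ∩ Γ, ∀ r : ℝ, 0 < r → {y | y ∈ P ∩ Γ ∧ dist y x = r}.ncard ≤ m

/-- A line. -/
def IsLine {d : ℕ} (Γ : Set (EuclideanSpace ℝ (Fin d))) : Prop :=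
  ∃ a v : EuclideanSpace ℝ (Fin d), v ≠ 0 ∧ Γ = {y | ∃ t : ℝ, y = a + t • v}

theorem finite_distances {d : ℕ} {P : Set (EuclideanSpace ℝ (Fin d))} (hP : P.Finite) :
    (distances P).Finite := by
  refine ((hP.prod hP).image fun p => dist p.1 p.2).subset ?_
  rintro r ⟨p, hp, q, hq, -, rfl⟩
  exact ⟨(p, q), ⟨hp, hq⟩, rfl⟩

theorem one_curve {d : ℕ} {P Γ : Set (EuclideanSpace ℝ (Fin d))} (hP : P.Finite) {m : ℕ}
    (h : SphereBound m P Γ) : (P ∩ Γ).ncard ≤ m * (distances P).ncard + 1 := by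
  classical
  rcases (P ∩ Γ).eq_empty_or_nonempty with h0 | ⟨x, hx⟩
  · rw [h0]; simp
  have hf : (P ∩ Γ).Finite := hP.subset inter_subset_left
  have hD := finite_distances hP
  have h1 : (hf.toFinset.erase x).card ≤ m * hD.toFinset.card := by
    refine Finset.card_le_mul_card_image_of_maps_to (f := fun y => dist y x) ?_ m ?_
    · intro y hy
      have hy' : y ∈ hf.toFinset.erase x := hy
      rw [Finset.mem_erase, Finite.mem_toFinset] at hy'
      have : dist y x ∈ hD.toFinset := by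
        rw [Finite.mem_toFinset]
        exact ⟨y, hy'.2.1, x, hx.1, hy'.1, rfl⟩
      exact this
    · intro r hr
      rw [Finite.mem_toFinset] at hr
      obtain ⟨p, _, q, _, hpq, hr⟩ := hr
      have hr0 : 0 < r := by rw [← hr]; exact dist_pos.2 hpq
      refine le_trans ?_ (h x hx r hr0)
      rw [← ncard_coe_finset]
      refine ncard_le_ncard ?_ (hf.subset fun y hy => hy.1)
      intro y hy
      rw [Finset.mem_coe, Finset.mem_filter, Finset.mem_erase, Finite.mem_toFinset] at hy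
      exact ⟨hy.1.2, hy.2⟩
  rw [Finset.card_erase_of_mem (by rw [Finite.mem_toFinset]; exact hx)] at h1
  rw [ncard_eq_toFinset_card _ hf, ncard_eq_toFinset_card _ hD]
  omega

theorem cover {d : ℕ} {P : Set (EuclideanSpace ℝ (Fin d))} (hP : P.Finite) {m k : ℕ}
    (Γ : Fin k → Set (EuclideanSpace ℝ (Fin d))) (hc : ∀ y ∈ P, ∃ i, y ∈ Γ i)
    (h : ∀ i, SphereBound m P (Γ i)) : P.ncard ≤ k * (m * (distances P).ncard + 1) := by
  classical
  have h1 : P.ncard ≤ (⋃ i, P ∩ Γ i).ncard := by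
    refine ncard_le_ncard (fun y hy => ?_) (hP.subset (iUnion_subset fun i => inter_subset_left))
    obtain ⟨i, hi⟩ := hc y hy
    exact mem_iUnion.2 ⟨i, hy, hi⟩
  have h2 : (⋃ i, P ∩ Γ i).ncard ≤ ∑ i, (P ∩ Γ i).ncard := by
    have hf : ∀ i, (P ∩ Γ i).Finite := fun i => hP.subset inter_subset_left
    have h3 : (⋃ i, P ∩ Γ i) = ((Finset.univ.biUnion fun i => (hf i).toFinset :
        Finset (EuclideanSpace ℝ (Fin d))) : Set _) := by
      ext y; simp
    rw [h3, ncard_coe_finset]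
    refine Finset.card_biUnion_le.trans (Finset.sum_le_sum fun i _ => ?_)
    rw [ncard_eq_toFinset_card _ (hf i)]
  refine h1.trans (h2.trans ((Finset.sum_le_sum fun i _ => one_curve hP (h i)).trans ?_))
  simp

theorem line_bound {d : ℕ} {P Γ : Set (EuclideanSpace ℝ (Fin d))} (hΓ : IsLine Γ) :
    SphereBound 2 P Γ := by
  obtain ⟨a, v, hv, rfl⟩ := hΓ
  rintro x ⟨-, s, rfl⟩ r hr
  have hv' : 0 < ‖v‖ := norm_pos_iff.2 hv
  refine (ncard_le_ncard (t := {a + s • v + (r / ‖v‖) • v, a + s • v - (r / ‖v‖) • v})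
    ?_ (toFinite _)).trans ((ncard_insert_le _ _).trans (by rw [ncard_singleton]))
  rintro _ ⟨⟨-, t, rfl⟩, ht⟩
  rw [dist_eq_norm, show a + t • v - (a + s • v) = (t - s) • v by rw [sub_smul]; abel, norm_smul,
    Real.norm_eq_abs] at ht
  have h1 : |t - s| = r / ‖v‖ := by rw [← ht]; field_simp
  rcases abs_choice (t - s) with h2 | h2
  · left
    rw [← h1, h2, sub_smul]; abel
  · right
    rw [mem_singleton_iff, ← h1, h2, neg_smul, sub_smul]; abel

/-- (1) `n ≤ k (m D + 1)` for sets covered by `k` curves with sphere bound `m`;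
(2) lines have sphere bound `2`;
(3) sets covered by at most `C n ^ (1 - 2 / d)` curves with sphere bound `m ≥ 1` have at least
`n ^ (2 / d) / ((m + 1) C)` distinct distances, in particular for lines with `m = 2`. -/
theorem result :
    (∀ (d m k : ℕ) (P : Set (EuclideanSpace ℝ (Fin d))), P.Finite →
      ∀ Γ : Fin k → Set (EuclideanSpace ℝ (Fin d)), (∀ y ∈ P, ∃ i, y ∈ Γ i) →
      (∀ i, SphereBound m P (Γ i)) → P.ncard ≤ k * (m * (distances P).ncard + 1)) ∧
    (∀ (d : ℕ) (P Γ : Set (EuclideanSpace ℝ (Fin d))), IsLine Γ → SphereBound 2 P Γ) ∧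
    (∀ (d m k : ℕ) (C : ℝ) (P : Set (EuclideanSpace ℝ (Fin d))), P.Finite → 2 ≤ P.ncard →
      ∀ Γ : Fin k → Set (EuclideanSpace ℝ (Fin d)), (∀ y ∈ P, ∃ i, y ∈ Γ i) →
      (∀ i, SphereBound m P (Γ i)) → 0 < C → (k : ℝ) ≤ C * (P.ncard : ℝ) ^ (1 - 2 / (d : ℝ)) →
      (P.ncard : ℝ) ^ (2 / (d : ℝ)) / ((m + 1) * C) ≤ (distances P).ncard) := by
  refine ⟨fun d m k P hP Γ hc h => cover hP Γ hc h, fun d P Γ h => line_bound h,
    fun d m k C P hP h2 Γ hc h hC hk => ?_⟩
  have h1 := cover hP Γ hc h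
  set n : ℝ := (P.ncard : ℝ) with hn
  have hn0 : 0 < n := by rw [hn]; exact_mod_cast (by omega : 0 < P.ncard)
  have hD : 1 ≤ (distances P).ncard := by
    obtain ⟨p, hp, q, hq, hpq⟩ := (one_lt_ncard hP).1 (by omega : 1 < P.ncard)
    exact Nat.one_le_iff_ne_zero.2 (ncard_ne_zero_of_mem (a := dist p q)
      ⟨p, hp, q, hq, hpq, rfl⟩ (finite_distances hP))
  have h3 : P.ncard ≤ k * ((m + 1) * (distances P).ncard) :=
    h1.trans (Nat.mul_le_mul_left k (by rw [add_mul, one_mul]; omega))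
  have h4 : n ≤ k * ((m + 1) * ((distances P).ncard : ℝ)) := by rw [hn]; exact_mod_cast h3
  have h5 : n = n ^ (1 - 2 / (d : ℝ)) * n ^ (2 / (d : ℝ)) := by
    rw [← Real.rpow_add hn0, sub_add_cancel, Real.rpow_one]
  have h6 : 0 < n ^ (1 - 2 / (d : ℝ)) := Real.rpow_pos_of_pos hn0 _
  rw [div_le_iff₀ (by positivity)]
  have h7 : n ^ (1 - 2 / (d : ℝ)) * n ^ (2 / (d : ℝ)) ≤
      n ^ (1 - 2 / (d : ℝ)) * (C * ((m + 1) * ((distances P).ncard : ℝ))) := by
    rw [← h5]
    refine h4.trans ?_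
    calc (k : ℝ) * ((m + 1) * ((distances P).ncard : ℝ)) ≤
        (C * n ^ (1 - 2 / (d : ℝ))) * ((m + 1) * ((distances P).ncard : ℝ)) :=
          mul_le_mul_of_nonneg_right hk (by positivity)
      _ = _ := by ring
  have h8 := le_of_mul_le_mul_left h7 h6
  linarith

end Vale.Agent.Results.P054.FewCurves
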