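import Vale.Agent.P041.Chain

/-!
P054: distinct distances in `ℝ^d` for point sets covered by few monotone chains.
-/

namespace Vale.Agent.Results.P054.MonotoneChains

open Vale.P041

open Classical in
/-- the number of distinct distances between two distinct points of `P` -/
noncomputable def distances {d : ℕ} (P : Finset (EuclideanSpace ℝ (Fin d))) : ℕ :=
  (P.offDiag.image (fun x => dist x.1 x.2)).card

theorem pinned_le {d : ℕ} (P : Finset (EuclideanSpace ℝ (Fin d))) (p : EuclideanSpace ℝ (Fin d))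
    (hp : p ∈ P) : pinned P p ≤ distances P := by
  classical
  unfold pinned distances
  apply Finset.card_le_card
  intro x hx
  obtain ⟨q, hq, rfl⟩ := Finset.mem_image.1 hx
  have hq' := Finset.mem_erase.1 hq
  exact Finset.mem_image.2 ⟨(p, q), Finset.mem_offDiag.2 ⟨hp, hq'.2, hq'.1.symm⟩, rfl⟩

/-- Let `P` be a set of `n ≥ 2` points of `ℝ^d`.
(1) If `P` is covered by `k` monotone chains, then `n ≤ k (|Δ(P)| + 1)`.
(2) If `d ≥ 1` and `P` is covered by at most `n^(1-2/d)` monotone chains, then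
`|Δ(P)| ≥ n^(2/d) / 2`. -/
theorem result (d : ℕ) (P : Finset (EuclideanSpace ℝ (Fin d))) (h2 : 2 ≤ P.card) :
    (∀ k : ℕ, ChainCover P k → P.card ≤ k * (distances P + 1)) ∧
    (1 ≤ d → (∃ k : ℕ, (k : ℝ) ≤ (P.card : ℝ) ^ (1 - 2 / (d : ℝ)) ∧ ChainCover P k) →
      (P.card : ℝ) ^ (2 / (d : ℝ)) / 2 ≤ distances P) := by
  have hne : P.Nonempty := Finset.card_pos.1 (by omega)
  have h1 : ∀ k : ℕ, ChainCover P k → P.card ≤ k * (distances P + 1) := by
    intro k hk
    obtain ⟨p, hp, h⟩ := main P hne k hk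
    exact h.trans (Nat.mul_le_mul_left k (Nat.add_le_add_right (pinned_le P p hp) 1))
  refine ⟨h1, ?_⟩
  rintro _ ⟨k, hk, hC⟩
  have h := h1 k hC
  have hn : (0 : ℝ) < P.card := by exact_mod_cast (by omega : 0 < P.card)
  have hr : (P.card : ℝ) ≤ k * (distances P + 1) := by exact_mod_cast h
  have h5 : (1 : ℝ) ≤ distances P := by
    have : 1 ≤ distances P := by
      obtain ⟨a, ha, b, hb, hab⟩ := Finset.one_lt_card.1 (by omega : 1 < P.card)
      unfold distances
      rw [Nat.one_le_iff_ne_zero, ← Nat.pos_iff_ne_zero, Finset.card_pos, Finset.image_nonempty]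
      exact ⟨(a, b), Finset.mem_offDiag.2 ⟨ha, hb, hab⟩⟩
    exact_mod_cast this
  have hpos : 0 < (P.card : ℝ) ^ (1 - 2 / (d : ℝ)) := Real.rpow_pos_of_pos hn _
  have h3 : (P.card : ℝ) ≤ (P.card : ℝ) ^ (1 - 2 / (d : ℝ)) * (2 * distances P) :=
    (hr.trans (mul_le_mul_of_nonneg_right hk (by positivity))).trans
      (mul_le_mul_of_nonneg_left (by linarith) hpos.le)
  have e : (P.card : ℝ) ^ (2 / (d : ℝ)) * (P.card : ℝ) ^ (1 - 2 / (d : ℝ)) = P.card := by
    rw [← Real.rpow_add hn]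
    conv_rhs => rw [← Real.rpow_one (P.card : ℝ)]
    congr 1
    ring
  have h4 : (P.card : ℝ) ^ (2 / (d : ℝ)) * (P.card : ℝ) ^ (1 - 2 / (d : ℝ)) ≤
      (2 * distances P) * (P.card : ℝ) ^ (1 - 2 / (d : ℝ)) := by
    rw [e]
    linarith
  have h6 := le_of_mul_le_mul_right h4 hpos
  linarith

end Vale.Agent.Results.P054.MonotoneChains
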